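import Vale.Agent.P267.Statement
import Vale.Agent.P267.H158.Inst
import Vale.Agent.P267.H221.Out
import Vale.Agent.P267.H283.BlockC
import Vale.Agent.P267.H692.Iface
import Vale.Agent.P267.H338.Iface

/-!
# P267: assembly of `CurvesStatement` from the block outputs (helper456)

Every `def ... : Prop` below whose name ends in `Thm` is the final theorem of a block. The theorem
`curves` at the end derives `CurvesStatement` from them.

* `BaseThm`   : the primitive circle valued map, the metric, `f` (GAUD 661, 158, 469, 857)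
* `NefThm`    : `K` is nef on `X` (CURV-C6 815, 823, 331, 338)
* `SurfThm`   : numerical facts on all `X_m` (RR 221/315/433, 469, 556, 175, XM-B1)
* `BlockC.Thm`: the bundles `e_1, ..., e_n` on the infinite cyclic cover (283, 82, 53)
* `XtThm`     : analysis on the infinite cyclic cover, output `XtCone` (877 and XA-*, XM-*, AIN0)
* `ConeThm`   : `XtCone` gives pole functions and the statement on ends (692, 439)
* `CurveThm`  : every point of `{α = 0}` lies on an embedded `ℙ¹` in `{α = 0}` (331, 338)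
* `CountThm`  : counting (338, 62, 332, 757, 995)
-/

set_option linter.unusedVariables false

open scoped Manifold ContDiff ComplexConjugate Matrix Topology
open Set Filter
open Vale.Agent.P272.K (Cm)
open Vale.Agent.P267.FL Vale.Agent.P267.H158 Vale.Agent.P267.XT Vale.Agent.P267.H338

noncomputable section

namespace Vale.Agent.P267.Asm

/-! ### the infinite cyclic cover with its geometric data -/

/-- The infinite cyclic cover `Cov hh` of `X` with all geometric data. -/
structure Base (X : Type) [TopologicalSpace X] [ChartedSpace C2 X] where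
  hh : C(X, UnitAddCircle)
  smooth : SmoothC (E := C2) hh
  prim : Primitive hh
  /-- metric, height function, deck transformation on `Cov hh` -/
  D : XTData (Cov hh)
  γ_eq : ∀ x, D.γ x = Cov.γ x
  f_eq : ∀ x, D.f x = Cov.f x
  /-- the metric on `X` -/
  g : X → Matrix (Fin 2) (Fin 2) ℂ
  g_herm : IsHerm g
  h_eq : ∀ x, D.h x = g (Cov.p x)

/-- BASE -/
def BaseThm : Prop :=
  ∀ (X : Type) [TopologicalSpace X] [T2Space X] [CompactSpace X] [ConnectedSpace X]
    [ChartedSpace (Cm 2) X] [IsManifold 𝓘(ℂ, Cm 2) ω X] (n : ℕ), IsMinimalVII X n →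
    Nonempty (Base X)

/-! ### closed surfaces -/

/-- `K` is nef: `K·L ≥ 0` for every holomorphic line bundle with a nonzero holomorphic section. -/
def Nef (X : Type) [TopologicalSpace X] [ChartedSpace C2 X] : Prop :=
  ∀ (ι ι' : Type) [Fintype ι] [DecidableEq ι] [Fintype ι'] [DecidableEq ι'] (L : LB X ι)
    (a : X → Fin 2 → ℂ) (LK : LB X ι'), L.IsHol a → RR.IsCanon LK →
    ∀ s : X → EuclideanSpace ℂ ι, s ∈ RR.H0 L a 0 → s ≠ 0 → 0 ≤ (RR.isec L LK).re

/-- NEF -/
def NefThm : Prop :=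
  ∀ (X : Type) [TopologicalSpace X] [T2Space X] [CompactSpace X] [ConnectedSpace X]
    [ChartedSpace (Cm 2) X] [IsManifold 𝓘(ℂ, Cm 2) ω X] (n : ℕ), IsMinimalVII X n → Nef X

/-- numerical facts on the finite cyclic covers -/
def SurfThm : Prop :=
  ∀ (X : Type) [TopologicalSpace X] [T2Space X] [CompactSpace X] [ConnectedSpace X]
    [ChartedSpace (Cm 2) X] [IsManifold 𝓘(ℂ, Cm 2) ω X] (n : ℕ), IsMinimalVII X n → Nef X →
    ∀ (B : Base X) (m : ℕ) [NeZero m], BlockC.SurfIn (CovM B.hh m) (m * n)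

/-! ### analysis on the infinite cyclic cover -/

/-- `E` on the infinite cyclic cover has the numbers of a basis element: trivial at both ends,
`E² = K·E = -1`, and so have its periodic extensions. -/
structure GoodLB {X : Type} [TopologicalSpace X] [ChartedSpace C2 X] (B : Base X)
    (E : BlockC.ALB (Cov B.hh)) (i₀ : E.ι) (R : ℝ) : Prop where
  R_nonneg : 0 ≤ R
  triv : BlockC.EndTriv B.hh E i₀ R
  sq : RR.isec E.L E.L = -1
  can : ∀ K : BlockC.ALB (Cov B.hh), RR.IsCanon K.L → RR.isec K.L E.L = -1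
  per : ∀ (m : ℕ) [NeZero m], 2 * R ≤ m → ∃ E' : LB (CovM B.hh m) E.ι,
      BlockC.IsPer B.hh m E.L E' ∧ RR.isec E' E' = -1 ∧
      ∀ K : BlockC.ALB (CovM B.hh m), RR.IsCanon K.L → RR.isec K.L E' = -1

/-- XT-AN -/
def XtThm : Prop :=
  ∀ (X : Type) [TopologicalSpace X] [T2Space X] [CompactSpace X] [ConnectedSpace X]
    [ChartedSpace (Cm 2) X] [IsManifold 𝓘(ℂ, Cm 2) ω X] (n : ℕ), IsMinimalVII X n → Nef X →
    ∀ (B : Base X), (∀ (m : ℕ) [NeZero m], BlockC.SurfIn (CovM B.hh m) (m * n)) →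
    ∀ (E : BlockC.ALB (Cov B.hh)) (i₀ : E.ι) (R : ℝ), GoodLB B E i₀ R →
      ∃ (a : Cov B.hh → Fin 2 → ℂ) (α : Cov B.hh → EuclideanSpace ℂ E.ι)
        (R' d d' : ℝ), H692.XtCone B.D E.L a i₀ R' α d d'

/-- XT-CONE -/
def ConeThm : Prop :=
  ∀ (M : Type) [TopologicalSpace M] [T2Space M] [ChartedSpace C2 M] [IsManifold 𝓘(ℂ, C2) ω M]
    (D : XTData M) (ι : Type) [Fintype ι] [DecidableEq ι] (L : LB M ι) (a : M → Fin 2 → ℂ) (i₀ : ι)
    (R : ℝ) (α : M → EuclideanSpace ℂ ι) (d d' : ℝ), H692.XtCone D L a i₀ R α d d' →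
      H692.PoleStatement D L α ∧ H692.EndStatement D α

/-! ### curves -/

/-- CURVES on the infinite cyclic cover: every point of `{α = 0}` lies on an embedded `ℙ¹` contained
in `{α = 0}` -/
def CurveThm : Prop :=
  ∀ (M : Type) [TopologicalSpace M] [T2Space M] [ChartedSpace C2 M] [IsManifold 𝓘(ℂ, C2) ω M]
    (D : XTData M) (ι : Type) [Fintype ι] [DecidableEq ι] (L : LB M ι) (a : M → Fin 2 → ℂ) (i₀ : ι)
    (R : ℝ) (α : M → EuclideanSpace ℂ ι) (d d' : ℝ), H692.XtCone D L a i₀ R α d d' →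
      H692.PoleStatement D L α → H692.EndStatement D α →
      ∀ x, α x = 0 → ∃ φ : EmbP1 M, x ∈ φ.image ∧ ∀ y ∈ φ.image, α y = 0

/-- the section `α` of the bundle `E` and its zero set, as needed for counting -/
structure GoodSec {M : Type} [TopologicalSpace M] [ChartedSpace C2 M] {ι : Type} [Fintype ι]
    [DecidableEq ι] (f : M → ℝ) (L : LB M ι) (a : M → Fin 2 → ℂ)
    (α : M → EuclideanSpace ℂ ι) : Prop where
  hol : L.IsHol a
  reg : Reg0 ∞ 0 α
  sec : L.Sec α
  eq : ∀ x i, L.db0 a 0 α x i = 0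
  dense : Dense {x | α x ≠ 0}
  out : ∃ R : ℝ, ∀ x, R ≤ f x → α x ≠ 0
  curves : ∀ x, α x = 0 → ∃ φ : EmbP1 M, x ∈ φ.image ∧ ∀ y ∈ φ.image, α y = 0

/-- COUNT -/
def CountThm : Prop :=
  ∀ (X : Type) [TopologicalSpace X] [T2Space X] [CompactSpace X] [ConnectedSpace X]
    [ChartedSpace (Cm 2) X] [IsManifold 𝓘(ℂ, Cm 2) ω X] (n : ℕ) (B : Base X)
    (E : Fin n → BlockC.ALB (Cov B.hh)) (i₀ : ∀ i, (E i).ι) (R : ℝ),
    (∀ i, BlockC.EndTriv B.hh (E i) (i₀ i) R) →
    (∀ (i j k) (L' : LB (Cov B.hh) (E j).ι), BlockC.IsShift B.hh k (E j).L L' →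
      RR.isec (E i).L L' = if i = j ∧ k = 0 then -1 else 0) →
    ∀ (a : Fin n → Cov B.hh → Fin 2 → ℂ) (α : ∀ i, Cov B.hh → EuclideanSpace ℂ (E i).ι),
    (∀ i, GoodSec Cov.f (E i).L (a i) (α i)) →
    ∃ C : Fin n → Set X, Function.Injective C ∧ ∀ i, IsRationalCurve (C i)

/-! ### assembly -/

/-- **Assembly.** -/
theorem curves (hBase : BaseThm) (hNef : NefThm) (hSurf : SurfThm) (hC : BlockC.Thm)
    (hXt : XtThm) (hCone : ConeThm) (hCurve : CurveThm) (hCount : CountThm) :
    CurvesStatement := by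
  intro X _ _ _ _ _ _ n hX
  obtain ⟨B⟩ := hBase X n hX
  have hN : Nef X := hNef X n hX
  have hS := hSurf X n hX hN B
  obtain ⟨E, i₀, R, hR, htriv, hdot, hcan, hper⟩ := hC X B.hh n B.smooth B.prim hS
  have hgood : ∀ i, GoodLB B (E i) (i₀ i) R := by
    intro i
    refine ⟨hR, htriv i, ?_, hcan i, fun m _ hm => hper m hm i⟩
    have := hdot i i 0 (E i).L (fun x => by
      rw [Cov.shift_zero])
    simpa using this
  choose a α R' d d' hx using fun i => hXt X n hX hN B hS (E i) (i₀ i) R (hgood i)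
  refine hCount X n B E i₀ R htriv hdot a α fun i => ?_
  have h1 := hCone (Cov B.hh) B.D (E i).ι (E i).L (a i) (i₀ i) (R' i) (α i) (d i) (d' i) (hx i)
  have h2 := hCurve (Cov B.hh) B.D (E i).ι (E i).L (a i) (i₀ i) (R' i) (α i) (d i) (d' i) (hx i)
    h1.1 h1.2
  exact ⟨(hx i).hol, (hx i).α_reg, (hx i).α_sec, (hx i).α_hol, (hx i).α_dense,
    ⟨R' i, fun x hx' => (hx i).α_out x (by rw [B.f_eq]; exact hx')⟩, h2⟩

end Vale.Agent.P267.Asm
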