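import Vale.Agent.P267.H158.BaseFin
import Vale.Agent.P267.H692.ConeFinal
import Vale.Agent.P267.H331.Thm
import Vale.Agent.P267.H338.Count
import Vale.Agent.P267.H877.XtFin
import Vale.Agent.P267.H283.Done
import Vale.Agent.P267.H815.NefThm
import Vale.Agent.P267.H682.SurfPS
import Vale.Agent.P267.H682.RRInX
import Vale.Agent.P267.H983.RRFinal2
import Vale.Agent.P267.H221.Chi
import Vale.Agent.P267.H306.T2
import Vale.Agent.P267.H667.T2s

/-!
# P267: `CurvesStatement` (helper456)

Every minimal surface of class VII with `b₂ = n > 0` contains `n` distinct rational curves. All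
block theorems of `H456/Assembly.lean` are plugged in.
-/

set_option linter.unusedVariables false

open scoped Manifold ContDiff ComplexConjugate Matrix Topology
open Set Filter MeasureTheory
open Vale.Agent.P272.K (Cm)
open Vale.Agent.P267.FL Vale.Agent.P267.H158 Vale.Agent.P267.XT Vale.Agent.P267.H338

noncomputable section

namespace Vale.Agent.P267.Asm

theorem chiStmt (X : Type) [TopologicalSpace X] [T2Space X] [CompactSpace X] [ChartedSpace C2 X]
    [IsManifold 𝓘(ℂ, C2) ω X] : H983.ChiStmt X := by
  intro A r B P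
  obtain ⟨C, hC⟩ := H439.exists_cplxOf P
  exact P.chi_eq_of C hC.i0 hC.i1 hC.i2 hC.d0 hC.d1

/-- Riemann-Roch, Noether's formula, Serre duality and finiteness on closed complex surfaces -/
theorem rrBlock : RR.RRBlock := H983.rrBlock_of_chi fun X _ _ _ _ _ => chiStmt X

theorem psThm : H682.PSThm := fun X _ _ _ _ _ A r B => ⟨(H955.exists_PS B).choose⟩

theorem frThm : H682.FRThm := by
  intro X _ _ _ _ _ A r B P
  obtain ⟨C, hC⟩ := H439.exists_cplxOf P
  exact ⟨hC.fr1, hC.fr2⟩

theorem t2Thm : XT.T2Thm := fun M _ _ _ _ _ D h => H306.t2Leaf D h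

theorem t2sThm : XT.T2sThm := fun M _ _ _ _ _ D h => H667.t2sLeaf D h

theorem nefThm : NefThm := H815.nefThm rrBlock

theorem surfThm : SurfThm := H682.surfThm_ps rrBlock psThm frThm

theorem rrInThm : XT.RRInThm := H682.rrInThm_ps rrBlock psThm frThm

theorem xtThm : XtThm := XT.xtThm_of t2Thm t2sThm rrInThm

/-- **`CurvesStatement`.** -/
theorem curvesStatement : CurvesStatement :=
  curves H158.base nefThm surfThm H283.blockC xtThm H692.cone H331.curve H338.count

end Vale.Agent.P267.Asm
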