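import Vale.Agent.P267.H456.Fin
import Vale.Agent.P267.H457.Chain
import Vale.Agent.P267.H378.Frm
import Vale.Agent.P267.H618.EndXThm

/-!
# P267: `GSSConjecture` from `OrdThm` (helper456)
-/

set_option linter.unusedVariables false

open scoped Manifold ContDiff ComplexConjugate Matrix Topology
open Set Filter MeasureTheory
open Vale.Agent.P272.K (Cm)
open Vale.Agent.P267.FL Vale.Agent.P267.H158 Vale.Agent.P267.XT Vale.Agent.P267.H338

noncomputable section

namespace Vale.Agent.P267.Asm

/-- everything that the blocks A to D deliver, for every minimal surface of class VII -/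
theorem blockThm : LineX.BlockThm :=
  LineX.blockThm H158.base nefThm surfThm H283.blockC (XT.leafThms_of t2Thm t2sThm) rrInThm
    H417.noFlThm H466.ainThm H692.cone H331.curve

/-- the global spherical shell conjecture from the structure theorem for the curves -/
theorem gss_of_ord (hOrd : LineX.OrdThm) : GSSConjecture :=
  LineX.gss blockThm hOrd H378.frameThm LineX.endThmX

end Vale.Agent.P267.Asm
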